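import Vale.Agent.P238.H142.Main

/-!
# P238: the choice of the number of levels, and the asymptotics
-/

set_option autoImplicit false

namespace Vale.Agent.P238.H142

open Real

/-- The number of levels used at length `n`. -/
noncomputable def lev (K n : ℕ) : ℕ :=
  open scoped Classical in Nat.findGreatest (fun x => x ^ (K * x ^ 2) ≤ n) n

theorem lev_spec (K : ℕ) (hK : 1 ≤ K) {L0 n : ℕ} (hL0 : 256 + 8 * K ≤ L0)
    (hn : L0 ^ (K * L0 ^ 2) ≤ n) :
    L0 ≤ lev K n ∧ lev K n ^ (K * lev K n ^ 2) ≤ n ∧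
      √(log n * log (log n)) ≤ √(32 * K) * (lev K n * log (lev K n)) := by
  classical
  have hKR : (1 : ℝ) ≤ K := by exact_mod_cast hK
  have hself : ∀ x : ℕ, 1 ≤ x → x ≤ x ^ (K * x ^ 2) := by
    intro x hx
    calc x = x ^ 1 := (pow_one x).symm
      _ ≤ x ^ (K * x ^ 2) := Nat.pow_le_pow_right hx (Nat.mul_pos hK (pow_pos hx 2))
  obtain ⟨L, hLdef⟩ : ∃ L, L = lev K n := ⟨_, rfl⟩
  rw [← hLdef]
  have hLd : L = Nat.findGreatest (fun x => x ^ (K * x ^ 2) ≤ n) n := by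
    rw [hLdef, lev]
  have hL0n : L0 ≤ n := (hself L0 (by omega)).trans hn
  have hL1 : L0 ≤ L := by rw [hLd]; exact Nat.le_findGreatest hL0n hn
  have hL2 : L ^ (K * L ^ 2) ≤ n := by
    rw [hLd]
    exact Nat.findGreatest_spec (P := fun x => x ^ (K * x ^ 2) ≤ n) hL0n hn
  have hL3 : n < (L + 1) ^ (K * (L + 1) ^ 2) := by
    by_contra hcon
    have hle := not_lt.1 hcon
    have h1 : L + 1 ≤ n := (hself (L + 1) (by omega)).trans hle
    have h2 : L + 1 ≤ L := by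
      conv_rhs => rw [hLd]
      exact Nat.le_findGreatest h1 hle
    omega
  refine ⟨hL1, hL2, ?_⟩
  have hLR : (256 : ℝ) ≤ L := by
    have : 256 ≤ L := by omega
    exact_mod_cast this
  have hLK : 8 * (K : ℝ) ≤ L := by
    have : 8 * K ≤ L := by omega
    exact_mod_cast this
  have hLpos : (0 : ℝ) < L := by linarith only [hLR]
  have hlogL : 4 * log 4 ≤ log L := by
    rw [show 4 * log 4 = log ((4 : ℝ) ^ 4) by rw [log_pow]; norm_num]
    apply log_le_log (by norm_num)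
    have h44 : (4 : ℝ) ^ 4 = 256 := by norm_num
    rw [h44]
    exact hLR
  have hlog4 : 0 < log 4 := log_pos (by norm_num)
  have hlogLpos : 0 < log (L : ℝ) := by linarith only [hlogL, hlog4]
  have hnL : L0 ≤ n := hL0n
  have hn1 : (256 : ℝ) ≤ n := by
    have : 256 ≤ n := by omega
    exact_mod_cast this
  have hlogn : log (n : ℝ) ≤ 8 * K * (L : ℝ) ^ 2 * log L := by
    have h1 : log (n : ℝ) ≤ log (((L + 1 : ℕ) : ℝ) ^ (K * (L + 1) ^ 2)) := by
      apply log_le_log (by linarith only [hn1])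
      exact_mod_cast hL3.le
    rw [log_pow] at h1
    have h2 : log ((L + 1 : ℕ) : ℝ) ≤ 2 * log L := by
      rw [show 2 * log (L : ℝ) = log ((L : ℝ) ^ 2) by rw [log_pow]; norm_num]
      apply log_le_log (by positivity)
      push_cast
      nlinarith only [hLR]
    have h3 : ((K * (L + 1) ^ 2 : ℕ) : ℝ) ≤ 4 * K * (L : ℝ) ^ 2 := by
      push_cast
      have : ((L : ℝ) + 1) ^ 2 ≤ 4 * (L : ℝ) ^ 2 := by nlinarith only [hLR]
      calc (K : ℝ) * ((L : ℝ) + 1) ^ 2 ≤ K * (4 * (L : ℝ) ^ 2) :=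
            mul_le_mul_of_nonneg_left this (by positivity)
        _ = _ := by ring
    calc log (n : ℝ) ≤ ((K * (L + 1) ^ 2 : ℕ) : ℝ) * log ((L + 1 : ℕ) : ℝ) := h1
      _ ≤ (4 * K * (L : ℝ) ^ 2) * (2 * log L) := by
          apply mul_le_mul h3 h2
          · apply log_nonneg
            push_cast
            linarith only [hLR]
          · (clear * - hK hLR; positivity)
      _ = _ := by ring
  have hlogn_pos : 1 < log (n : ℝ) := by
    have h1 : log (4 : ℝ) < log n := log_lt_log (by norm_num) (by linarith only [hn1])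
    have : (1 : ℝ) ≤ log 4 := by
      rw [Real.le_log_iff_exp_le (by norm_num)]
      have := Real.exp_one_lt_d9
      linarith only [this]
    linarith only [h1, this]
  have hloglog : log (log (n : ℝ)) ≤ 4 * log L := by
    have h1 : log (log (n : ℝ)) ≤ log ((L : ℝ) ^ 4) := by
      apply log_le_log (by linarith only [hlogn_pos])
      refine hlogn.trans ?_
      have h2 : log (L : ℝ) ≤ L := (log_le_sub_one_of_pos hLpos).trans (by linarith only [])
      calc 8 * (K : ℝ) * (L : ℝ) ^ 2 * log L ≤ L * (L : ℝ) ^ 2 * L := by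
            apply mul_le_mul _ h2 hlogLpos.le (by (clear * - hLR; positivity))
            exact mul_le_mul_of_nonneg_right hLK (by (clear * - hLR; positivity))
        _ = (L : ℝ) ^ 4 := by ring
    rw [log_pow] at h1
    exact_mod_cast h1
  have hloglog_pos : 0 ≤ log (log (n : ℝ)) := log_nonneg hlogn_pos.le
  apply Real.sqrt_le_iff.2
  refine ⟨by (clear * - hK hLR hlogLpos; positivity), ?_⟩
  rw [mul_pow, Real.sq_sqrt (by positivity)]
  calc log (n : ℝ) * log (log (n : ℝ)) ≤ (8 * K * (L : ℝ) ^ 2 * log L) * (4 * log L) :=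
        mul_le_mul hlogn hloglog hloglog_pos (by (clear * - hK hLR hlogLpos; positivity))
    _ = 32 * K * (L * log L) ^ 2 := by ring

/-- The numerical estimate for the exponent `θ`. -/
theorem num_bound {C K L : ℕ} {θ : ℝ} (hθ0 : 0 < θ) (hL1 : 1 ≤ L)
    (hM : ((24 * C + 12 : ℕ) : ℝ) ≤ (L : ℝ) ^ (θ / 4)) (hK : (K : ℝ) ≤ θ * L / 4) :
    (((4 * C + 2) * L : ℕ) : ℝ) ^ (1 - θ) ≤ L ∧
      (L : ℝ) ^ K * (6 * ((((4 * C + 2) * L : ℕ) : ℝ) ^ (1 - θ) / L)) ^ L ≤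
        exp (-(θ / 2 * (L * log L))) := by
  have hL0 : (0 : ℝ) < L := by exact_mod_cast hL1
  have hLR : (1 : ℝ) ≤ L := by exact_mod_cast hL1
  have hC1 : (1 : ℝ) ≤ ((4 * C + 2 : ℕ) : ℝ) := by
    have : 1 ≤ 4 * C + 2 := by omega
    exact_mod_cast this
  have e1 : (((4 * C + 2) * L : ℕ) : ℝ) ^ (1 - θ) =
      ((4 * C + 2 : ℕ) : ℝ) ^ (1 - θ) * (L : ℝ) ^ (1 - θ) := by
    rw [← Real.mul_rpow (by positivity) hL0.le]
    push_cast
    rfl
  have e2 : ((4 * C + 2 : ℕ) : ℝ) ^ (1 - θ) ≤ ((4 * C + 2 : ℕ) : ℝ) := by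
    calc ((4 * C + 2 : ℕ) : ℝ) ^ (1 - θ) ≤ ((4 * C + 2 : ℕ) : ℝ) ^ (1 : ℝ) :=
          Real.rpow_le_rpow_of_exponent_le hC1 (by linarith)
      _ = _ := Real.rpow_one _
  have e3 : (L : ℝ) ^ (1 - θ) / L = (L : ℝ) ^ (-θ) := by
    rw [div_eq_iff hL0.ne', ← Real.rpow_add_one hL0.ne']
    congr 1
    ring
  have e4 : (L : ℝ) ^ (1 - θ) * (L : ℝ) ^ θ = L := by
    rw [← Real.rpow_add hL0]
    simp
  have e5 : (L : ℝ) ^ (θ / 4) ≤ (L : ℝ) ^ θ :=
    Real.rpow_le_rpow_of_exponent_le hLR (by linarith)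
  have e6 : ((4 * C + 2 : ℕ) : ℝ) ≤ ((24 * C + 12 : ℕ) : ℝ) := by
    have : 4 * C + 2 ≤ 24 * C + 12 := by omega
    exact_mod_cast this
  constructor
  · rw [e1]
    calc ((4 * C + 2 : ℕ) : ℝ) ^ (1 - θ) * (L : ℝ) ^ (1 - θ)
        ≤ (L : ℝ) ^ θ * (L : ℝ) ^ (1 - θ) := by
          apply mul_le_mul_of_nonneg_right _ (by positivity)
          linarith
      _ = L := by rw [mul_comm]; exact e4
  · have h1 : 6 * ((((4 * C + 2) * L : ℕ) : ℝ) ^ (1 - θ) / L) ≤ (L : ℝ) ^ (-(3 * θ / 4)) := by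
      rw [e1, mul_div_assoc, e3]
      calc 6 * (((4 * C + 2 : ℕ) : ℝ) ^ (1 - θ) * (L : ℝ) ^ (-θ))
          ≤ 6 * (((4 * C + 2 : ℕ) : ℝ) * (L : ℝ) ^ (-θ)) := by
            apply mul_le_mul_of_nonneg_left _ (by norm_num)
            exact mul_le_mul_of_nonneg_right e2 (by positivity)
        _ = ((24 * C + 12 : ℕ) : ℝ) * (L : ℝ) ^ (-θ) := by push_cast; ring
        _ ≤ (L : ℝ) ^ (θ / 4) * (L : ℝ) ^ (-θ) :=
            mul_le_mul_of_nonneg_right hM (by positivity)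
        _ = (L : ℝ) ^ (-(3 * θ / 4)) := by
            rw [← Real.rpow_add hL0]
            congr 1
            ring
    have h2 : (6 * ((((4 * C + 2) * L : ℕ) : ℝ) ^ (1 - θ) / L)) ^ L ≤
        (L : ℝ) ^ (-(3 * θ / 4) * L) := by
      rw [Real.rpow_mul hL0.le, Real.rpow_natCast]
      exact pow_le_pow_left₀ (by positivity) h1 L
    have h3 : (L : ℝ) ^ K ≤ (L : ℝ) ^ (θ * L / 4) := by
      rw [← Real.rpow_natCast]
      exact Real.rpow_le_rpow_of_exponent_le hLR hK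
    calc (L : ℝ) ^ K * (6 * ((((4 * C + 2) * L : ℕ) : ℝ) ^ (1 - θ) / L)) ^ L
        ≤ (L : ℝ) ^ (θ * L / 4) * (L : ℝ) ^ (-(3 * θ / 4) * L) :=
          mul_le_mul h3 h2 (by positivity) (by positivity)
      _ = (L : ℝ) ^ (-(θ / 2 * L)) := by
          rw [← Real.rpow_add hL0]
          congr 1
          ring
      _ = exp (-(θ / 2 * (L * log L))) := by
          rw [Real.rpow_def_of_pos hL0]
          congr 1
          ring

/-- A threshold for the exponent `θ`. -/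
theorem exists_threshold (C K : ℕ) {θ : ℝ} (hθ0 : 0 < θ) :
    ∃ L0 : ℕ, 256 + 8 * K ≤ L0 ∧ 4 * C + 2 ≤ L0 ∧ ∀ L : ℕ, L0 ≤ L →
      ((24 * C + 12 : ℕ) : ℝ) ≤ (L : ℝ) ^ (θ / 4) ∧ (K : ℝ) ≤ θ * L / 4 := by
  refine ⟨256 + 8 * K + (4 * C + 2) + ⌈((24 * C + 12 : ℕ) : ℝ) ^ (4 / θ)⌉₊ + ⌈4 * K / θ⌉₊,
    by omega, by omega, fun L hL => ?_⟩
  constructor
  · have h1 : ⌈((24 * C + 12 : ℕ) : ℝ) ^ (4 / θ)⌉₊ ≤ L := by omega
    have h2 : ((24 * C + 12 : ℕ) : ℝ) ^ (4 / θ) ≤ L := Nat.ceil_le.1 h1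
    calc ((24 * C + 12 : ℕ) : ℝ) = (((24 * C + 12 : ℕ) : ℝ) ^ (4 / θ)) ^ (θ / 4) := by
          rw [← Real.rpow_mul (by positivity)]
          rw [show 4 / θ * (θ / 4) = 1 by field_simp, Real.rpow_one]
      _ ≤ (L : ℝ) ^ (θ / 4) := Real.rpow_le_rpow (by positivity) h2 (by positivity)
  · have h1 : ⌈4 * K / θ⌉₊ ≤ L := by omega
    have h2 : 4 * K / θ ≤ L := Nat.ceil_le.1 h1
    rw [div_le_iff₀ hθ0] at h2
    linarith

end Vale.Agent.P238.H142
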