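import Vale.Agent.P238.H142.Asymp

/-!
# P238: the final theorems
-/

set_option autoImplicit false

namespace Vale.Agent.P238.H142

open Vale.Agent.P238 Vale.Agent.P238.Full Vale.Agent.P238.H474 Finset

/-- One sequence of distributions on pairs of words, all snowflakes, all kernels of negative
type. -/
theorem main_neg : ∃ (N₀ : ℕ) (π : ∀ n : ℕ, (Fin n → Bool) → (Fin n → Bool) → ℝ),
    (∀ n, N₀ ≤ n → (∀ x y, 0 ≤ π n x y) ∧ (∀ x, π n x x = 0) ∧ ∑ x, ∑ y, π n x y = 1) ∧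
    ∀ θ : ℝ, 0 < θ → θ ≤ 1 → ∃ c : ℝ, 0 < c ∧ ∃ n₀ : ℕ, N₀ ≤ n₀ ∧ ∀ n : ℕ, n₀ ≤ n →
      ∀ k : (Fin n → Bool) → (Fin n → Bool) → ℝ, Neg k → ∀ B : ℝ, 0 ≤ B →
        (∀ x y, k x y ≤ B * binED n x y ^ θ) →
        ∑ x, ∑ y, π n x y * k x y ≤
          Real.exp (-(c * Real.sqrt (Real.log n * Real.log (Real.log n)))) *
            (B * ∑ x, ∑ y, π n x y * binED n x y ^ θ) := by
  classical
  obtain ⟨C, hC, hpr⟩ := primes_exist
  obtain ⟨K, hK⟩ : ∃ K, K = 6 * C + 17 := ⟨_, rfl⟩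
  have hK1 : 1 ≤ K := by omega
  obtain ⟨L1, hL1⟩ : ∃ L1, L1 = 256 + 8 * K + (4 * C + 2) := ⟨_, rfl⟩
  have hlev : ∀ n, L1 ^ (K * L1 ^ 2) ≤ n → 4 * C + 2 ≤ lev K n ∧
      lev K n ^ ((6 * C + 17) * lev K n ^ 2) ≤ n := by
    intro n hn
    have h := lev_spec K hK1 (L0 := L1) (by omega) hn
    exact ⟨by omega, by rw [← hK]; exact h.2.1⟩
  have hex : ∀ n : ℕ, ∃ π : (Fin n → Bool) → (Fin n → Bool) → ℝ, L1 ^ (K * L1 ^ 2) ≤ n →
      (∀ x y, 0 ≤ π x y) ∧ (∀ x, π x x = 0) ∧ ∑ x, ∑ y, π x y = 1 ∧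
      ∀ θ : ℝ, 0 < θ → θ ≤ 1 → (((4 * C + 2) * lev K n : ℕ) : ℝ) ^ (1 - θ) ≤ lev K n →
        ∀ k : (Fin n → Bool) → (Fin n → Bool) → ℝ, Neg k → ∀ B : ℝ, 0 ≤ B →
          (∀ x y, k x y ≤ B * binED n x y ^ θ) →
          ∑ x, ∑ y, π x y * k x y ≤
            (lev K n : ℝ) ^ (6 * C + 17) *
              (6 * ((((4 * C + 2) * lev K n : ℕ) : ℝ) ^ (1 - θ) / lev K n)) ^ lev K n *
              (B * ∑ x, ∑ y, π x y * binED n x y ^ θ) := by
    intro n
    by_cases hn : L1 ^ (K * L1 ^ 2) ≤ n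
    · obtain ⟨π, hπ⟩ := exists_pi C hC hpr (hlev n hn).1 (hlev n hn).2
      exact ⟨π, fun _ => hπ⟩
    · exact ⟨fun _ _ => 0, fun h => absurd h hn⟩
  choose π hπ using hex
  refine ⟨L1 ^ (K * L1 ^ 2), π, fun n hn => ⟨(hπ n hn).1, (hπ n hn).2.1, (hπ n hn).2.2.1⟩, ?_⟩
  intro θ hθ0 hθ1
  obtain ⟨L0, hL0, hL0', hthr⟩ := exists_threshold C K hθ0
  have hKpos : (0 : ℝ) < K := by exact_mod_cast hK1
  have hsq : 0 < Real.sqrt (32 * K) := Real.sqrt_pos.2 (by positivity)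
  refine ⟨θ / 2 / Real.sqrt (32 * K), by positivity,
    max (L1 ^ (K * L1 ^ 2)) (L0 ^ (K * L0 ^ 2)), le_max_left _ _, ?_⟩
  intro n hn k hk B hB hkB
  have hn1 : L1 ^ (K * L1 ^ 2) ≤ n := (le_max_left _ _).trans hn
  have hn0 : L0 ^ (K * L0 ^ 2) ≤ n := (le_max_right _ _).trans hn
  obtain ⟨hLL, -, hsqrt⟩ := lev_spec K hK1 hL0 hn0
  have hL1' : 1 ≤ lev K n := by omega
  obtain ⟨hM, hKL⟩ := hthr _ hLL
  obtain ⟨hb1, hb2⟩ := num_bound hθ0 hL1' hM hKL
  obtain ⟨hp1, -, -, hp4⟩ := hπ n hn1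
  refine (hp4 θ hθ0 hθ1 hb1 k hk B hB hkB).trans ?_
  apply mul_le_mul_of_nonneg_right
  · rw [← hK]
    refine hb2.trans ?_
    apply Real.exp_le_exp.2
    apply neg_le_neg
    calc θ / 2 / Real.sqrt (32 * K) * Real.sqrt (Real.log n * Real.log (Real.log n))
        ≤ θ / 2 / Real.sqrt (32 * K) * (Real.sqrt (32 * K) * (lev K n * Real.log (lev K n))) :=
          mul_le_mul_of_nonneg_left hsqrt (by positivity)
      _ = θ / 2 * (lev K n * Real.log (lev K n)) := by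
          field_simp
  · apply mul_nonneg hB
    apply Finset.sum_nonneg
    intro x _
    apply Finset.sum_nonneg
    intro y _
    exact mul_nonneg (hp1 x y) (Real.rpow_nonneg (Nat.cast_nonneg _) _)

/-- The norm distance of `ℓ₁` is of negative type. -/
theorem neg_l1 {X : Type} [Fintype X] [DecidableEq X] (F : X → lp (fun _ : ℕ => ℝ) 1) :
    Neg fun x y => ‖F x - F y‖ := by
  refine ⟨fun x y => norm_sub_rev _ _, fun x => by simp, fun c hc => ?_⟩
  have hp : 0 < (1 : ENNReal).toReal := by simp only [ENNReal.toReal_one, zero_lt_one]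
  have hsumm : ∀ x y : X, Summable (fun i : ℕ => |F x i - F y i|) := by
    intro x y
    have h1 := (lp.memℓp (F x - F y)).summable hp
    simpa only [AddSubgroupClass.coe_sub, PreLp.sub_apply, Real.norm_eq_abs, ENNReal.toReal_one,
      Real.rpow_one] using h1
  have hnorm : ∀ x y : X, ‖F x - F y‖ = ∑' i : ℕ, |F x i - F y i| := by
    intro x y
    rw [lp.norm_eq_tsum_rpow hp]
    simp only [AddSubgroupClass.coe_sub, PreLp.sub_apply, Real.norm_eq_abs, ENNReal.toReal_one,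
      Real.rpow_one, ne_eq, one_ne_zero, not_false_eq_true, div_self]
  have e : ∑ x, ∑ y, c x * c y * ‖F x - F y‖ =
      ∑' i : ℕ, ∑ x, ∑ y, c x * c y * |F x i - F y i| := by
    rw [Summable.tsum_finsetSum]
    · refine Finset.sum_congr rfl fun x _ => ?_
      rw [Summable.tsum_finsetSum]
      · refine Finset.sum_congr rfl fun y _ => ?_
        rw [hnorm, tsum_mul_left]
      · intro y _
        exact (hsumm x y).mul_left _
    · intro x _
      exact summable_sum fun y _ => (hsumm x y).mul_left _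
  rw [e]
  apply tsum_nonpos
  intro i
  have h := ((neg_sq (H := ℝ) fun x => F x i).rpow (a := 1 / 2) (by norm_num) (by norm_num)).neg c hc
  refine le_trans (le_of_eq ?_) h
  refine Finset.sum_congr rfl fun x _ => Finset.sum_congr rfl fun y _ => ?_
  rw [← Real.sqrt_eq_rpow, Real.norm_eq_abs, Real.sqrt_sq_eq_abs, abs_abs]

/-- A nonnegative multiple bounding a kernel of negative type has a nonnegative constant. -/
theorem const_nonneg {n : ℕ} (hn : 1 ≤ n) {θ B : ℝ}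
    {k : (Fin n → Bool) → (Fin n → Bool) → ℝ} (hk : ∀ x y, 0 ≤ k x y)
    (h : ∀ x y, k x y ≤ B * binED n x y ^ θ) : 0 ≤ B := by
  have hne : (fun _ : Fin n => true) ≠ (fun _ : Fin n => false) := by
    intro h0
    have := congrFun h0 ⟨0, hn⟩
    simp at this
  have h1 := (hk _ _).trans (h (fun _ => true) (fun _ => false))
  have h2 : 0 < binED n (fun _ => true) (fun _ => false) ^ θ :=
    Real.rpow_pos_of_pos (binED_pos' _ _ hne) _
  by_contra hB
  have := mul_neg_of_neg_of_pos (not_le.1 hB) h2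
  linarith

theorem sum_pi_pos {n : ℕ} {θ : ℝ}
    {π : (Fin n → Bool) → (Fin n → Bool) → ℝ} (h0 : ∀ x y, 0 ≤ π x y) (hd : ∀ x, π x x = 0)
    (h1 : ∑ x, ∑ y, π x y = 1) : 0 < ∑ x, ∑ y, π x y * binED n x y ^ θ := by
  by_contra hcon
  have hnn : ∀ x y, 0 ≤ π x y * binED n x y ^ θ := fun x y =>
    mul_nonneg (h0 x y) (Real.rpow_nonneg (Nat.cast_nonneg _) _)
  have hz : ∑ x, ∑ y, π x y * binED n x y ^ θ = 0 :=
    le_antisymm (not_lt.1 hcon) (Finset.sum_nonneg fun x _ => Finset.sum_nonneg fun y _ => hnn x y)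
  have hz2 : ∀ x y, π x y = 0 := by
    intro x y
    have e1 := (Finset.sum_eq_zero_iff_of_nonneg
      (fun x _ => Finset.sum_nonneg fun y _ => hnn x y)).1 hz x (Finset.mem_univ _)
    have e2 := (Finset.sum_eq_zero_iff_of_nonneg (fun y _ => hnn x y)).1 e1 y (Finset.mem_univ _)
    by_cases hxy : x = y
    · rw [hxy]; exact hd y
    · rcases mul_eq_zero.1 e2 with e3 | e3
      · exact e3
      · exact absurd e3 (Real.rpow_pos_of_pos (binED_pos' x y hxy) _).ne'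
  simp [hz2] at h1

/-- From average distortion to `c₁`. -/
theorem c1_of_pi {n : ℕ} {θ ε : ℝ} (hθ : 0 < θ) (hε : 0 < ε)
    {π : (Fin n → Bool) → (Fin n → Bool) → ℝ} (h0 : ∀ x y, 0 ≤ π x y) (hd : ∀ x, π x x = 0)
    (h1 : ∑ x, ∑ y, π x y = 1)
    (h : ∀ k : (Fin n → Bool) → (Fin n → Bool) → ℝ, Neg k → ∀ B : ℝ, 0 ≤ B →
      (∀ x y, k x y ≤ B * binED n x y ^ θ) →
      ∑ x, ∑ y, π x y * k x y ≤ ε * (B * ∑ x, ∑ y, π x y * binED n x y ^ θ)) :
    ε⁻¹ ≤ c1 (fun x y => binED n x y ^ θ) := by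
  classical
  have hpos : 0 < ∑ x, ∑ y, π x y * binED n x y ^ θ := sum_pi_pos h0 hd h1
  apply le_c1 (fun x y => binED n x y ^ θ)
  · intro x
    simp only [binED_self', Real.zero_rpow hθ.ne']
  · intro x y hxy
    exact Real.rpow_pos_of_pos (binED_pos' x y hxy) _
  · intro F A M hA hM hFA hFM
    have e1 := h _ (neg_l1 F) A hA hFA
    have e2 : ∑ x, ∑ y, π x y * binED n x y ^ θ ≤ M * ∑ x, ∑ y, π x y * ‖F x - F y‖ := by
      rw [Finset.mul_sum]
      refine Finset.sum_le_sum fun x _ => ?_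
      rw [Finset.mul_sum]
      refine Finset.sum_le_sum fun y _ => ?_
      calc π x y * binED n x y ^ θ ≤ π x y * (M * ‖F x - F y‖) :=
            mul_le_mul_of_nonneg_left (hFM x y) (h0 x y)
        _ = M * (π x y * ‖F x - F y‖) := by ring
    have e3 : ∑ x, ∑ y, π x y * binED n x y ^ θ ≤
        (A * M * ε) * ∑ x, ∑ y, π x y * binED n x y ^ θ := by
      refine e2.trans ((mul_le_mul_of_nonneg_left e1 hM).trans (le_of_eq ?_))
      ring
    have e4 : 1 ≤ A * M * ε := by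
      by_contra hcon
      have := mul_lt_mul_of_pos_right (not_le.1 hcon) hpos
      linarith
    rw [inv_le_iff_one_le_mul₀ hε]
    exact e4

/-- From average distortion to distortion. -/
theorem dist_of_pi {n : ℕ} {θ t : ℝ}
    {π : (Fin n → Bool) → (Fin n → Bool) → ℝ} (h0 : ∀ x y, 0 ≤ π x y) (hd : ∀ x, π x x = 0)
    (h1 : ∑ x, ∑ y, π x y = 1) {k : (Fin n → Bool) → (Fin n → Bool) → ℝ} {A B : ℝ}
    (h : ∑ x, ∑ y, π x y * k x y ≤
      Real.exp (-t) * (B * ∑ x, ∑ y, π x y * binED n x y ^ θ))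
    (hA : ∀ x y, A * binED n x y ^ θ ≤ k x y) : A * Real.exp t ≤ B := by
  have hpos := sum_pi_pos (θ := θ) h0 hd h1
  have e1 : A * ∑ x, ∑ y, π x y * binED n x y ^ θ ≤ ∑ x, ∑ y, π x y * k x y := by
    rw [Finset.mul_sum]
    refine Finset.sum_le_sum fun x _ => ?_
    rw [Finset.mul_sum]
    refine Finset.sum_le_sum fun y _ => ?_
    calc A * (π x y * binED n x y ^ θ) = π x y * (A * binED n x y ^ θ) := by ring
      _ ≤ π x y * k x y := mul_le_mul_of_nonneg_left (hA x y) (h0 x y)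
  have e2 : A * ∑ x, ∑ y, π x y * binED n x y ^ θ ≤
      (Real.exp (-t) * B) * ∑ x, ∑ y, π x y * binED n x y ^ θ := by
    refine e1.trans (h.trans (le_of_eq ?_))
    ring
  have e3 : A ≤ Real.exp (-t) * B := le_of_mul_le_mul_right e2 hpos
  calc A * Real.exp t ≤ (Real.exp (-t) * B) * Real.exp t :=
        mul_le_mul_of_nonneg_right e3 (Real.exp_pos _).le
    _ = B * (Real.exp (-t) * Real.exp t) := by ring
    _ = B := by rw [← Real.exp_add]; simp

end Vale.Agent.P238.H142
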