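import Vale.Agent.P238.Bdl.B1

/-!
# P238: the induction data with costs measured in a snowflake of the edit distance
-/

set_option autoImplicit false

namespace Vale.Agent.P238.H142

open Vale.Agent.P238 Vale.Agent.P238.Full

/-- The total cost of the perturbations, measured in the `θ`-snowflake. -/
def Cost {Q n q : ℕ} {κ δ : ℝ} (θ κ' : ℝ) (D : Data Q n κ δ q) : Prop :=
  ∑ a, D.w a * D.d a ^ θ ≤ κ' * (n : ℝ) ^ θ

section step

variable {Q n k q : ℕ} {κ δ : ℝ} {p : Fin k → ℕ} (D : ∀ j, Data (Q * p j) n κ δ q)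

theorem step_T {w S N : ℕ} {θ κ' : ℝ} (hθ : 0 < θ) (hw : 1 ≤ w) (hN1 : 1 ≤ N) (hk1 : 1 ≤ k)
    (hD : ∀ j, Cost θ κ' (D j)) :
    ∑ b, sw D w S b * sd D N S b ^ θ ≤
      ((k : ℝ) ^ (1 - θ) / w * κ' + (2 * S / N) ^ θ) * ((N * (k * n) : ℕ) : ℝ) ^ θ := by
  have hw0 : (0 : ℝ) < w := by exact_mod_cast hw
  have hN0 : (0 : ℝ) < N := by exact_mod_cast hN1
  have hk0 : (0 : ℝ) < k := by exact_mod_cast hk1
  rw [Fintype.sum_sum_type]
  have h1 : ∑ b : (Σ j, (D j).A), sw D w S (Sum.inl b) * sd D N S (Sum.inl b) ^ θ ≤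
      k * ((N : ℝ) ^ θ / w * (κ' * (n : ℝ) ^ θ)) := by
    rw [Fintype.sum_sigma]
    have h2 : ∀ j : Fin k, ∑ a : (D j).A, sw D w S (Sum.inl ⟨j, a⟩) *
        sd D N S (Sum.inl ⟨j, a⟩) ^ θ ≤ (N : ℝ) ^ θ / w * (κ' * (n : ℝ) ^ θ) := by
      intro j
      have h3 : ∑ a : (D j).A, sw D w S (Sum.inl ⟨j, a⟩) * sd D N S (Sum.inl ⟨j, a⟩) ^ θ =
          (N : ℝ) ^ θ / w * ∑ a, (D j).w a * (D j).d a ^ θ := by
        rw [Finset.mul_sum]
        apply Finset.sum_congr rfl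
        intro a _
        simp only [sw, sd, Sum.elim_inl]
        rw [Real.mul_rpow hN0.le ((D j).hd a)]
        ring
      rw [h3]
      exact mul_le_mul_of_nonneg_left (hD j) (by positivity)
    refine (Finset.sum_le_sum fun j _ => h2 j).trans (le_of_eq ?_)
    simp only [Finset.sum_const, Finset.card_univ, Fintype.card_fin, nsmul_eq_mul]
  have h2 : ∑ b : Fin S, sw D w S (Sum.inr b) * sd D N S (Sum.inr b) ^ θ ≤
      (2 * (S * (k * n)) : ℝ) ^ θ := by
    have h3 : ∀ b : Fin S, sw D w S (Sum.inr b) * sd D N S (Sum.inr b) ^ θ ≤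
        1 / S * (2 * (S * (k * n)) : ℝ) ^ θ := by
      intro b
      simp only [sw, sd, Sum.elim_inr]
      apply mul_le_mul_of_nonneg_left _ (by positivity)
      apply Real.rpow_le_rpow (by positivity) _ hθ.le
      have : ((b : ℕ) : ℝ) ≤ S := by exact_mod_cast b.2.le
      gcongr
    refine (Finset.sum_le_sum fun b _ => h3 b).trans ?_
    rw [Finset.sum_const, Finset.card_univ, Fintype.card_fin, nsmul_eq_mul]
    rcases Nat.eq_zero_or_pos S with hS | hS
    · subst hS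
      simp only [Nat.cast_zero, zero_mul]
      positivity
    · have hS0 : (0 : ℝ) < S := by exact_mod_cast hS
      rw [← mul_assoc, mul_one_div_cancel hS0.ne', one_mul]
  have h4 : ((N * (k * n) : ℕ) : ℝ) ^ θ = (N : ℝ) ^ θ * ((k : ℝ) ^ θ * (n : ℝ) ^ θ) := by
    push_cast
    rw [Real.mul_rpow hN0.le (by positivity), Real.mul_rpow hk0.le (by positivity)]
  have h5 : (2 * S / N : ℝ) ^ θ * ((N * (k * n) : ℕ) : ℝ) ^ θ = (2 * (S * (k * n)) : ℝ) ^ θ := by
    rw [← Real.mul_rpow (by positivity) (by positivity)]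
    congr 1
    push_cast
    field_simp
  have h6 : (k : ℝ) ^ (1 - θ) * (k : ℝ) ^ θ = k := by
    rw [← Real.rpow_add hk0]
    simp
  rw [add_mul, h5, h4]
  have h7 : (k : ℝ) ^ (1 - θ) / w * κ' * ((N : ℝ) ^ θ * ((k : ℝ) ^ θ * (n : ℝ) ^ θ)) =
      k * ((N : ℝ) ^ θ / w * (κ' * (n : ℝ) ^ θ)) := by
    calc _ = ((k : ℝ) ^ (1 - θ) * (k : ℝ) ^ θ) * ((N : ℝ) ^ θ / w * (κ' * (n : ℝ) ^ θ)) := by ring
      _ = _ := by rw [h6]
  rw [h7]
  exact add_le_add h1 h2

end step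

/-- The composition step. -/
theorem stepT {Q n k N S w q : ℕ} {κ δ : ℝ} (p : Fin k → ℕ) (hk : 4 ≤ k) (hn : 1 ≤ n)
    (hQ : 1 ≤ Q) (hw : 1 ≤ w) (hδ0 : 0 < δ) (hδ1 : δ ≤ 1)
    (hp : ∀ i j, i ≠ j → Nat.Coprime (p i) (p j)) (hpQ : ∀ j, Nat.Coprime (p j) Q)
    (hp1 : ∀ j, 1 ≤ p j)
    (hS : ∀ A : Finset (Fin k), A.card < w → Q * ∏ j ∈ A, p j ≤ S)
    (hN : ∀ A : Finset (Fin k), k < 2 * A.card → N ≤ ∏ j ∈ A, p j) (hN1 : 1 ≤ N)
    (T : Set ℝ) (hT : ∀ θ ∈ T, 0 < θ) (κT : ℝ → ℝ)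
    (D : ∀ j, ∃ D : Data (Q * p j) n κ δ q, ∀ θ ∈ T, Cost θ (κT θ) D) :
    ∃ D : Data Q (N * k * n) (κ / w + S / N) (δ / 2) (k * q), ∀ θ ∈ T,
      Cost θ ((k : ℝ) ^ (1 - θ) / w * κT θ + (2 * S / N) ^ θ) D := by
  classical
  choose D hDT using D
  have e : N * k * n = N * (k * n) := by ring
  rw [e]
  exact ⟨{
    G := ∀ j, (D j).G
    grp := inferInstance
    fin := inferInstance
    v := (∏ j, p j) • su D
    X := sX D
    A := (Σ j, (D j).A) ⊕ Fin S
    finA := inferInstance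
    g := sg D S
    w := sw D w S
    d := sd D N S
    hv := by
      funext j
      obtain ⟨c, hc⟩ := Finset.dvd_prod_of_mem p (Finset.mem_univ j)
      simp only [Pi.smul_apply, su, Pi.zero_apply]
      rw [hc, ← mul_smul, ← mul_assoc, mul_comm (Q * p j) c, mul_smul, (D j).hv, smul_zero]
    hX := fun x m => sX_lt D x (by omega) m
    hw := sw_nonneg D w S
    hd := sd_nonneg D N S
    hK := fun χ hχ => step_K D hw hQ hp1 hS χ hχ
    hC := by
      intro b x
      rcases b with ⟨j, a⟩ | s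
      · simp only [sg, sd, Sum.elim_inl]
        exact ED_single_le D x N j a
      · simp only [sg, sd, Sum.elim_inr]
        have h := ED_diag_le D (by omega) (by omega) x (N * (k * n)) s
        have h2 : (ED (win (sX D x) 0 (N * (k * n)))
            (win (sX D (x + ((s : ℕ) : ℤ) • su D)) 0 (N * (k * n))) : ℝ) ≤
            ((2 * ((s : ℕ) * (k * n)) : ℕ) : ℝ) := by
          exact_mod_cast h
        refine h2.trans (le_of_eq ?_)
        push_cast
        ring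
    hD := step_D D hw hN1
    hF := fun x t ht a l hal => step_F D hk hn hδ0 hδ1 hp hpQ hN x t ht a l hal },
    fun θ hθ => step_T D (hT θ hθ) hw hN1 (by omega) (fun j => hDT j θ hθ)⟩

/-- The trivial words of length one. -/
theorem baseT (Q : ℕ) (hQ : 1 ≤ Q) {q : ℕ} (hq : Q ≤ q) :
    ∃ D : Data Q 1 1 1 q, ∀ θ : ℝ, Cost θ 1 D := by
  have : NeZero Q := ⟨by omega⟩
  have hQ0 : (0 : ℝ) < Q := by exact_mod_cast hQ
  refine ⟨{
    G := ZMod Q
    grp := inferInstance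
    fin := inferInstance
    v := 1
    X := fun x _ => x.val
    A := ZMod Q
    finA := inferInstance
    g := fun a => a
    w := fun _ => 1 / Q
    d := fun _ => 1
    hv := by simp
    hX := fun x p => lt_of_lt_of_le (ZMod.val_lt x) hq
    hw := fun _ => by positivity
    hd := fun _ => by positivity
    hK := ?_
    hC := ?_
    hD := ?_
    hF := ?_ }, ?_⟩
  · intro χ hχ
    have h0 : χ ≠ 0 := by
      intro h
      apply hχ
      rw [h]
      simp
    have hs : ∑ a, χ a = 0 := AddChar.sum_eq_zero_iff_ne_zero.2 h0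
    have h1 : ∑ a : ZMod Q, 1 / (Q : ℝ) * ‖1 - χ a‖ ^ 2 = 1 / (Q : ℝ) * (2 * Q - 2 * (∑ a, χ a).re) := by
      rw [← Finset.mul_sum, Complex.re_sum]
      congr 1
      have h2 : ∀ a : ZMod Q, ‖1 - χ a‖ ^ 2 = 2 - 2 * (χ a).re := fun a =>
        norm_one_sub_sq (AddChar.norm_apply χ a)
      simp_rw [h2]
      rw [Finset.sum_sub_distrib, ← Finset.mul_sum]
      simp only [Finset.sum_const, Finset.card_univ, ZMod.card, nsmul_eq_mul, sub_left_inj]
      ring
    rw [h1, hs]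
    field_simp
    simp only [Complex.zero_re, sub_zero]
    linarith only []
  · intro a x
    have h := ED_sub_le [] [] x.val (x + a).val
    simp only [List.nil_append] at h
    simp only [win, List.range'_one, List.map_cons, List.map_nil]
    exact_mod_cast h
  · simp only [one_div, mul_one, Finset.sum_const, Finset.card_univ, ZMod.card, nsmul_eq_mul, mul_inv_cancel_of_invertible, Nat.cast_one, Std.le_refl]
  · intro x t ht a l hal
    simp only [Nat.cast_one, mul_one]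
    have : 1 ≤ ED (win (fun _ => x.val) 0 1) (win (fun _ => (x + t • (1 : ZMod Q)).val) a l) := by
      rw [Nat.one_le_iff_ne_zero]
      intro h0
      have h1 := ED_eq_zero h0
      have h2 := congrArg List.length h1
      rw [win_length, win_length] at h2
      subst h2
      simp only [win, List.range'_one, List.map_cons, List.map_nil, List.cons.injEq,
        and_true] at h1
      have h3 := ZMod.val_injective Q h1
      have h4 : (t : ZMod Q) = 0 := by
        have : t • (1 : ZMod Q) = 0 := by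
          have := h3.symm
          rwa [add_eq_left] at this
        simpa only [zsmul_eq_mul, mul_one] using this
      exact ht ((ZMod.intCast_zmod_eq_zero_iff_dvd t Q).1 h4)
    exact_mod_cast this
  · intro θ
    have h1 : ∑ _a : ZMod Q, 1 / (Q : ℝ) * (1 : ℝ) ^ θ ≤ 1 * ((1 : ℕ) : ℝ) ^ θ := by
      simp only [Real.one_rpow, mul_one, Finset.sum_const, Finset.card_univ, ZMod.card,
        nsmul_eq_mul, Nat.cast_one]
      rw [mul_one_div_cancel hQ0.ne']
    exact h1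

/-- The parameters of the data may be relaxed. -/
theorem relaxT {Q n q : ℕ} {κ κ' δ : ℝ} (h : κ ≤ κ') (D : Data Q n κ δ q) :
    ∃ D' : Data Q n κ' δ q, ∀ θ κ'' : ℝ, Cost θ κ'' D → Cost θ κ'' D' :=
  ⟨{ D with hD := D.hD.trans (mul_le_mul_of_nonneg_right h (Nat.cast_nonneg _)) },
    fun _ _ h => h⟩

/-- The numerical step for the snowflake costs. -/
theorem cost_num {L k B i : ℕ} (hL : 1 ≤ L) (hLk : L ≤ k) (hB : 1 ≤ B) (hi : i < L) {θ : ℝ}
    (hθ1 : θ ≤ 1) (hθk : (k : ℝ) ^ (1 - θ) ≤ L) :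
    (k : ℝ) ^ (1 - θ) / L * (3 * ((k : ℝ) ^ (1 - θ) / L)) ^ i +
      (2 * (B ^ (2 * L) : ℕ) / (B ^ (2 * L) * L ^ L : ℕ)) ^ θ ≤
      (3 * ((k : ℝ) ^ (1 - θ) / L)) ^ (i + 1) := by
  have hL0 : (0 : ℝ) < L := by exact_mod_cast hL
  have hLk' : (L : ℝ) ≤ k := by exact_mod_cast hLk
  have hk0 : (0 : ℝ) < k := lt_of_lt_of_le hL0 hLk'
  have hB0 : (0 : ℝ) < (B : ℝ) ^ (2 * L) := by
    have : (0 : ℝ) < B := by exact_mod_cast hB
    positivity
  obtain ⟨r, hr⟩ : ∃ r : ℝ, r = (k : ℝ) ^ (1 - θ) / L := ⟨_, rfl⟩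
  rw [← hr]
  have hr0 : 0 < r := by rw [hr]; positivity
  have hr1 : r ≤ 1 := by rw [hr, div_le_one hL0]; exact hθk
  have hrL : (L : ℝ) ^ (-θ) ≤ r := by
    rw [hr, le_div_iff₀ hL0]
    calc (L : ℝ) ^ (-θ) * L = (L : ℝ) ^ (1 - θ) := by
          rw [← Real.rpow_add_one hL0.ne']
          congr 1
          ring
      _ ≤ (k : ℝ) ^ (1 - θ) := Real.rpow_le_rpow hL0.le hLk' (by linarith)
  have e1 : (2 * (B ^ (2 * L) : ℕ) / (B ^ (2 * L) * L ^ L : ℕ) : ℝ) = 2 / (L : ℝ) ^ L := by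
    push_cast
    field_simp
  have h2 : (2 / (L : ℝ) ^ L) ^ θ ≤ 2 * r ^ (i + 1) := by
    calc (2 / (L : ℝ) ^ L) ^ θ = 2 ^ θ * ((L : ℝ) ^ (-θ)) ^ L := by
          rw [Real.div_rpow (by norm_num) (by positivity), div_eq_mul_inv, ← Real.rpow_natCast,
            ← Real.rpow_mul hL0.le, ← Real.rpow_neg hL0.le, ← Real.rpow_natCast,
            ← Real.rpow_mul hL0.le]
          congr 2
          ring
      _ ≤ 2 * r ^ L := by
          apply mul_le_mul _ (pow_le_pow_left₀ (by positivity) hrL L) (by positivity) (by norm_num)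
          calc (2 : ℝ) ^ θ ≤ 2 ^ (1 : ℝ) := Real.rpow_le_rpow_of_exponent_le (by norm_num) hθ1
            _ = 2 := by norm_num
      _ ≤ 2 * r ^ (i + 1) := by
          apply mul_le_mul_of_nonneg_left _ (by norm_num)
          exact pow_le_pow_of_le_one hr0.le hr1 hi
  rw [e1]
  have h3 : (1 : ℝ) ≤ 3 ^ i := one_le_pow₀ (by norm_num)
  have h4 : 0 < r ^ (i + 1) := by positivity
  have h5 : r * (3 * r) ^ i = 3 ^ i * r ^ (i + 1) := by rw [mul_pow, pow_succ]; ring
  have h6 : (3 * r) ^ (i + 1) = 3 * 3 ^ i * r ^ (i + 1) := by rw [mul_pow, pow_succ]; ring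
  rw [h5, h6]
  nlinarith only [h2, h3, h4, mul_le_mul_of_nonneg_right h3 h4.le]

/-- The induction over the levels. Parameters: `P ≤ p a ≤ B` for `a < L * k`. -/
theorem levelsT {L k P B q0 : ℕ} (p : ℕ → ℕ) (hL : 1 ≤ L) (hk : 4 ≤ k) (hLk : L ≤ k)
    (hP : 1 ≤ P) (hB : 2 ≤ B)
    (hPL : B ^ (2 * L) * L ^ L ≤ P ^ (k / 2))
    (hpP : ∀ a, a < L * k → P ≤ p a) (hpB : ∀ a, a < L * k → p a ≤ B)
    (hcop : ∀ a b, a < L * k → b < L * k → a ≠ b → Nat.Coprime (p a) (p b))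
    (hq0 : 2 * B ^ L ≤ q0) :
    ∀ i, i ≤ L → ∀ Q, 1 ≤ Q → Q ≤ 2 * B ^ (L - i) → (∀ a, a < i * k → Nat.Coprime (p a) Q) →
      ∃ D : Data Q ((B ^ (2 * L) * L ^ L * k) ^ i) ((2 / (L : ℝ)) ^ i) ((1 / 2 : ℝ) ^ i)
        (k ^ i * q0), ∀ θ ∈ {θ : ℝ | 0 < θ ∧ θ ≤ 1 ∧ (k : ℝ) ^ (1 - θ) ≤ L},
        Cost θ ((3 * ((k : ℝ) ^ (1 - θ) / L)) ^ i) D := by
  intro i
  induction i with
  | zero =>
    intro _ Q hQ1 hQ _
    obtain ⟨D, hD⟩ := baseT Q hQ1 (q := q0) (by
      refine hQ.trans (le_trans ?_ hq0)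
      simp)
    rw [show (B ^ (2 * L) * L ^ L * k) ^ 0 = 1 from pow_zero _,
      show (2 / (L : ℝ)) ^ 0 = 1 from pow_zero _, show (1 / 2 : ℝ) ^ 0 = 1 from pow_zero _,
      show k ^ 0 * q0 = q0 by simp]
    exact ⟨D, fun θ _ => by simpa only [pow_zero] using hD θ⟩
  | succ i ih =>
    intro hi Q hQ1 hQ hQc
    set N := B ^ (2 * L) * L ^ L with hNdef
    have hN1 : 1 ≤ N := Nat.one_le_iff_ne_zero.2 (by positivity)
    have hik : i * k + k ≤ L * k := by
      have := Nat.mul_le_mul_right k hi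
      rwa [Nat.succ_mul] at this
    have hlt : ∀ j : Fin k, i * k + (j : ℕ) < L * k := fun j => by
      have := j.2
      omega
    have hD : ∀ j : Fin k, ∃ D : Data (Q * p (i * k + j)) ((N * k) ^ i)
        ((2 / (L : ℝ)) ^ i) ((1 / 2 : ℝ) ^ i) (k ^ i * q0),
        ∀ θ ∈ {θ : ℝ | 0 < θ ∧ θ ≤ 1 ∧ (k : ℝ) ^ (1 - θ) ≤ L},
        Cost θ ((3 * ((k : ℝ) ^ (1 - θ) / L)) ^ i) D := by
      intro j
      apply ih (by omega) (Q * p (i * k + j))
      · exact Nat.mul_pos hQ1 (lt_of_lt_of_le hP (hpP _ (hlt j)))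
      · have e : L - i = (L - (i + 1)) + 1 := by omega
        rw [e, pow_succ, ← mul_assoc]
        exact Nat.mul_le_mul hQ (hpB _ (hlt j))
      · intro a ha
        apply Nat.Coprime.mul_right
        · exact hQc a (by rw [Nat.succ_mul]; omega)
        · apply hcop a _ (by have := j.2; omega) (hlt j)
          omega
    have hstep := stepT (Q := Q) (n := (N * k) ^ i) (k := k) (N := N) (S := B ^ (2 * L)) (w := L)
      (q := k ^ i * q0) (κ := (2 / (L : ℝ)) ^ i) (δ := (1 / 2 : ℝ) ^ i)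
      (fun j => p (i * k + j)) hk (Nat.one_le_iff_ne_zero.2 (by positivity)) hQ1 hL
      (by positivity) (pow_le_one₀ (by norm_num) (by norm_num))
      (fun j j' hjj => hcop _ _ (hlt j) (hlt j') (by
        intro h
        apply hjj
        apply Fin.ext
        omega))
      (fun j => hQc _ (by have := j.2; rw [Nat.succ_mul]; omega))
      (fun j => hP.trans (hpP _ (hlt j)))
      (by
        intro A hA
        have h1 : ∏ j ∈ A, p (i * k + j) ≤ B ^ A.card := by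
          apply Finset.prod_le_pow_card
          intro j _
          exact hpB _ (hlt j)
        have h2 : B ^ A.card ≤ B ^ (L - 1) := Nat.pow_le_pow_right (by omega) (by omega)
        have h3 : B ^ (L - (i + 1)) ≤ B ^ (L - 1) := Nat.pow_le_pow_right (by omega) (by omega)
        calc Q * ∏ j ∈ A, p (i * k + j) ≤ (2 * B ^ (L - 1)) * B ^ (L - 1) :=
              Nat.mul_le_mul (hQ.trans (Nat.mul_le_mul_left 2 h3)) (h1.trans h2)
          _ ≤ (B * B ^ (L - 1)) * (B * B ^ (L - 1)) := by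
              apply Nat.mul_le_mul
              · exact Nat.mul_le_mul_right _ hB
              · exact Nat.le_mul_of_pos_left _ (by omega)
          _ = B ^ (2 * L) := by
              rw [← pow_succ', ← pow_add]
              congr 1
              omega)
      (by
        intro A hA
        have h1 : P ^ A.card ≤ ∏ j ∈ A, p (i * k + j) := by
          rw [← Finset.prod_const]
          apply Finset.prod_le_prod'
          intro j _
          exact hpP _ (hlt j)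
        have h2 : P ^ (k / 2) ≤ P ^ A.card := Nat.pow_le_pow_right hP (by omega)
        exact hPL.trans (h2.trans h1))
      hN1 {θ : ℝ | 0 < θ ∧ θ ≤ 1 ∧ (k : ℝ) ^ (1 - θ) ≤ L} (fun θ hθ => hθ.1)
      (fun θ => (3 * ((k : ℝ) ^ (1 - θ) / L)) ^ i) hD
    obtain ⟨D, hDc⟩ := hstep
    have hκ : (2 / (L : ℝ)) ^ i / L + ((B ^ (2 * L) : ℕ) : ℝ) / (N : ℝ) ≤
        (2 / (L : ℝ)) ^ (i + 1) := by
      have hLpos : (0 : ℝ) < L := by exact_mod_cast hL
      have hBpos : (0 : ℝ) < (B : ℝ) ^ (2 * L) := by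
        have : (0 : ℝ) < B := by
          have : 0 < B := by omega
          exact_mod_cast this
        positivity
      have e1 : ((B ^ (2 * L) : ℕ) : ℝ) / (N : ℝ) = 1 / (L : ℝ) ^ L := by
        rw [hNdef]
        push_cast
        rw [div_mul_eq_div_div, div_self hBpos.ne']
      have e2 : 1 / (L : ℝ) ^ L ≤ (2 / (L : ℝ)) ^ i / L := by
        rw [div_pow, div_div, ← pow_succ]
        have h1 : (L : ℝ) ^ (i + 1) ≤ (L : ℝ) ^ L :=
          pow_le_pow_right₀ (by exact_mod_cast hL) hi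
        have h2 : (1 : ℝ) ≤ 2 ^ i := one_le_pow₀ (by norm_num)
        exact div_le_div₀ (by positivity) h2 (by positivity) h1
      rw [e1, pow_succ]
      have e3 : (2 / (L : ℝ)) ^ i * (2 / L) = (2 / (L : ℝ)) ^ i / L + (2 / (L : ℝ)) ^ i / L := by
        ring
      rw [e3]
      linarith only [e2]
    have e1 : (N * k) ^ (i + 1) = N * k * (N * k) ^ i := pow_succ' _ _
    have e2 : ((1 / 2 : ℝ)) ^ (i + 1) = (1 / 2 : ℝ) ^ i / 2 := by rw [pow_succ]; ring
    have e3 : k ^ (i + 1) * q0 = k * (k ^ i * q0) := by rw [pow_succ']; ring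
    rw [e1, e2, e3]
    obtain ⟨D', hD'⟩ := relaxT hκ D
    refine ⟨D', fun θ hθ => hD' θ _ ?_⟩
    refine (hDc θ hθ).trans ?_
    apply mul_le_mul_of_nonneg_right _ (by positivity)
    exact cost_num hL hLk (by omega) (by omega) hθ.2.1 hθ.2.2

/-- The data exist with `L` levels. -/
theorem exists_dataT (C : ℕ) (hC : 1 ≤ C)
    (hpr : ∀ m : ℕ, 2 ≤ m → Nat.nth Nat.Prime (2 * m) ≤ m ^ C) (L : ℕ) (hL : 4 * C + 2 ≤ L) :
    ∃ N d q : ℕ, 1 ≤ N ∧ q ≤ 2 ^ d ∧
      (∃ D : Data 2 N ((2 / (L : ℝ)) ^ L) ((1 / 2 : ℝ) ^ L) q,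
        ∀ θ : ℝ, 0 < θ → θ ≤ 1 → (((4 * C + 2) * L : ℕ) : ℝ) ^ (1 - θ) ≤ L →
          Cost θ ((3 * ((((4 * C + 2) * L : ℕ) : ℝ) ^ (1 - θ) / L)) ^ L) D) ∧
      8 * (2 * d + 3) ≤ L ^ (6 * C + 17) ∧ (2 * d + 3) * N ≤ L ^ ((6 * C + 17) * L ^ 2) := by
  obtain ⟨k, hk⟩ : ∃ k, k = (4 * C + 2) * L := ⟨_, rfl⟩
  rw [← hk]
  obtain ⟨P, hP⟩ : ∃ P, P = L * k := ⟨_, rfl⟩
  obtain ⟨B, hB⟩ : ∃ B, B = P ^ C := ⟨_, rfl⟩
  have hL6 : 6 ≤ L := by omega
  have hLk : L ≤ k := by
    rw [hk]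
    exact Nat.le_mul_of_pos_left _ (by omega)
  have hk6 : 6 ≤ k := hL6.trans hLk
  have hkP : k ≤ P := by rw [hP]; exact Nat.le_mul_of_pos_left _ (by omega)
  have hLP : L ≤ P := by rw [hP]; exact Nat.le_mul_of_pos_right _ (by omega)
  have hP6 : 6 ≤ P := hk6.trans hkP
  have hPB : P ≤ B := by rw [hB]; exact Nat.le_self_pow (by omega) P
  have hmono : StrictMono (Nat.nth Nat.Prime) := Nat.nth_strictMono Nat.infinite_setOfPred_prime
  have hprime : ∀ a, Nat.Prime (Nat.nth Nat.Prime a) := fun a =>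
    Nat.nth_mem_of_infinite Nat.infinite_setOfPred_prime a
  have hge : ∀ a, a ≤ Nat.nth Nat.Prime a := fun a => hmono.le_apply
  have hlev := levelsT (L := L) (k := k) (P := P) (B := B) (q0 := 2 * B ^ L)
    (fun a => Nat.nth Nat.Prime (P + a)) (by omega) (by omega) hLk (by omega) (by omega)
    (by
      have e1 : k / 2 = 2 * C * L + L := by
        rw [hk]
        have : (4 * C + 2) * L = (2 * C * L + L) * 2 := by ring
        rw [this, Nat.mul_div_cancel _ (by norm_num)]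
      rw [e1, pow_add, hB, ← pow_mul]
      have e2 : C * (2 * L) = 2 * C * L := by ring
      rw [e2]
      exact Nat.mul_le_mul_left _ (Nat.pow_le_pow_left hLP L))
    (fun a _ => (Nat.le_add_right P a).trans (hge _))
    (fun a ha => by
      rw [← hP] at ha
      rw [hB]
      exact (hmono.monotone (by omega)).trans (hpr P (by omega)))
    (fun a b _ _ hab => (Nat.coprime_primes (hprime _) (hprime _)).2 (fun h => by
      have := hmono.injective h
      omega))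
    (le_refl _) L (le_refl _) 2 (by norm_num) (by simp)
    (fun a _ => (Nat.coprime_primes (hprime _) Nat.prime_two).2 (fun h => by
      have := hge (P + a)
      omega))
  have hPL3 : P ≤ L ^ 3 := by
    rw [hP, hk]
    calc L * ((4 * C + 2) * L) ≤ L * (L * L) :=
          Nat.mul_le_mul_left _ (Nat.mul_le_mul_right _ hL)
      _ = L ^ 3 := by ring
  have hE : (C + 1) * L + 1 ≤ L ^ 2 := by
    nlinarith only [hL]
  refine ⟨(B ^ (2 * L) * L ^ L * k) ^ L, P * ((C + 1) * L + 1), k ^ L * (2 * B ^ L), ?_, ?_,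
    ?_, ?_, ?_⟩
  · have hB0 : 0 < B := by omega
    have hL0 : 0 < L := by omega
    have hk0 : 0 < k := by omega
    exact Nat.one_le_iff_ne_zero.2 (by (clear * - hB0 hL6 hk6; positivity))
  · calc k ^ L * (2 * B ^ L) ≤ P ^ L * (P * (P ^ C) ^ L) := by
          rw [hB]
          exact Nat.mul_le_mul (Nat.pow_le_pow_left hkP L) (Nat.mul_le_mul_right _ (by omega))
      _ = P ^ ((C + 1) * L + 1) := by
          rw [← pow_mul, ← pow_succ', ← pow_add]
          congr 1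
          ring
      _ ≤ (2 ^ P) ^ ((C + 1) * L + 1) := Nat.pow_le_pow_left (Nat.lt_two_pow_self).le _
      _ = 2 ^ (P * ((C + 1) * L + 1)) := by rw [pow_mul]
  · obtain ⟨D, hD⟩ := hlev
    exact ⟨D, fun θ h0 h1 h2 => hD θ ⟨h0, h1, h2⟩⟩
  · have h1 : P * ((C + 1) * L + 1) ≤ L ^ 5 := by
      calc P * ((C + 1) * L + 1) ≤ L ^ 3 * L ^ 2 := Nat.mul_le_mul hPL3 hE
        _ = L ^ 5 := by ring
    have h2 : 1 ≤ L ^ 5 := Nat.one_le_pow _ _ (by omega)
    have h3 : 2 ^ 6 ≤ L ^ 6 := Nat.pow_le_pow_left (by omega) 6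
    calc 8 * (2 * (P * ((C + 1) * L + 1)) + 3) ≤ 2 ^ 6 * L ^ 5 := by omega
      _ ≤ L ^ 6 * L ^ 5 := Nat.mul_le_mul_right _ h3
      _ = L ^ 11 := by ring
      _ ≤ L ^ (6 * C + 17) := Nat.pow_le_pow_right (by omega) (by omega)
  · have h1 : P * ((C + 1) * L + 1) ≤ L ^ 5 := by
      calc P * ((C + 1) * L + 1) ≤ L ^ 3 * L ^ 2 := Nat.mul_le_mul hPL3 hE
        _ = L ^ 5 := by ring
    have h2 : 1 ≤ L ^ 5 := Nat.one_le_pow _ _ (by omega)
    have h3 : 2 ^ 6 ≤ L ^ 6 := Nat.pow_le_pow_left (by omega) 6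
    have h4 : 2 * (P * ((C + 1) * L + 1)) + 3 ≤ L ^ (11 * L ^ 2) := by
      calc 2 * (P * ((C + 1) * L + 1)) + 3 ≤ 2 ^ 6 * L ^ 5 := by omega
        _ ≤ L ^ 6 * L ^ 5 := Nat.mul_le_mul_right _ h3
        _ = L ^ 11 := by ring
        _ ≤ L ^ (11 * L ^ 2) := Nat.pow_le_pow_right (by omega) (by nlinarith only [hE])
    have h5 : (B ^ (2 * L) * L ^ L * k) ^ L ≤ L ^ ((6 * C + 6) * L ^ 2) := by
      calc (B ^ (2 * L) * L ^ L * k) ^ L ≤ ((P ^ C) ^ (2 * L) * P ^ L * P) ^ L := by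
            rw [hB]
            apply Nat.pow_le_pow_left
            exact Nat.mul_le_mul (Nat.mul_le_mul_left _ (Nat.pow_le_pow_left hLP L)) hkP
        _ = P ^ ((2 * C * L + L + 1) * L) := by
            rw [← pow_mul, ← pow_add, ← pow_succ, ← pow_mul]
            congr 1
            ring
        _ ≤ (L ^ 3) ^ ((2 * C * L + L + 1) * L) := Nat.pow_le_pow_left hPL3 _
        _ = L ^ (3 * ((2 * C * L + L + 1) * L)) := by rw [← pow_mul]
        _ ≤ L ^ ((6 * C + 6) * L ^ 2) := Nat.pow_le_pow_right (by omega) (by nlinarith only [hE])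
    calc (2 * (P * ((C + 1) * L + 1)) + 3) * (B ^ (2 * L) * L ^ L * k) ^ L
        ≤ L ^ (11 * L ^ 2) * L ^ ((6 * C + 6) * L ^ 2) := Nat.mul_le_mul h4 h5
      _ = L ^ ((6 * C + 17) * L ^ 2) := by
          rw [← pow_add]
          congr 1
          ring

end Vale.Agent.P238.H142
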